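import Vale.Agent.P307.R2.H541.Iso

/-!
Size reduction of isolating sets with two cardinals: `μ` for the pieces over which types are
compared, `τ` for the sets which carry a convergent sequence.
-/

universe u

open Set Cardinal Function

namespace Vale.Agent.P307.R2.H608

open H541 H541.PG

variable {C : Type u} {M : PG C} {X B B' D T₁ e : Set C} {μ τ : Cardinal.{u}}

/-- **Shrinking isolating sets**, the form with two cardinals. The free copy `k (g e)` does not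
split over a subset `q₀` of `T₁` of size at most `τ` for pieces of size at most `μ`; the
automorphism `l` need not fix `e`. -/
theorem isol_shrink₂ (hDT : D ⊆ T₁) (heT : e ⊆ T₁) (he : #e ≤ τ) (hτ₀ : ℵ₀ ≤ τ) (hμ : μ < M.χ)
    (hrefl : ∀ y ⊆ B', #y ≤ μ → ∀ q ⊆ T₁, #q ≤ τ →
      ∃ t ∈ M.G, (∀ x ∈ q, t x = x) ∧ ∀ x ∈ y, t x ∈ D)
    (hfree : ∀ g ∈ M.G, (∀ x ∈ D, g x = x) → ∀ x₀ ⊆ X, #x₀ ≤ μ → ∃ k ∈ M.G,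
      (∀ x ∈ T₁, k x = x) ∧
      (∃ q₀ ⊆ T₁, #q₀ ≤ τ ∧ ∀ t ∈ M.G, (∀ x ∈ q₀, t x = x) → ∀ y ⊆ B', #y ≤ μ →
        (∀ x ∈ y, t x ∈ D) → ∃ t' ∈ M.G, (∀ x ∈ e, t' (k (g x)) = k (g x)) ∧ ∀ x ∈ y, t' x = t x) ∧
      ∃ l ∈ M.G, (∀ x ∈ B, l x = x) ∧ ∀ x ∈ x₀, l (k x) ∈ X)
    (hTB : ∀ g ∈ M.G, (∀ y ⊆ B', #y ≤ μ → ∃ h ∈ M.G, (∀ x ∈ y, h x = x) ∧ ∀ x ∈ e, h x = g x) →
      ∃ h ∈ M.G, (∀ x ∈ B, h x = x) ∧ ∀ x ∈ e, h x = g x)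
    (hTX : ∀ g ∈ M.G, (∀ y ⊆ X, #y ≤ μ → ∃ h ∈ M.G, (∀ x ∈ y, h x = x) ∧ ∀ x ∈ e, h x = g x) →
      ∀ A ⊆ X, #A < M.χ → ∃ h ∈ M.G, (∀ x ∈ A, h x = x) ∧ ∀ x ∈ e, h x = g x)
    (hB : M.Isol B X e) : M.Isol D X e := by
  intro g hg hgD A hA hAc
  refine hTX g hg (fun x₀ hx₀ hx₀c => ?_) A hA hAc
  obtain ⟨k, hk, hkT, ⟨q₀, hq₀, hq₀c, hns⟩, l, hl, hlB, hlX⟩ := hfree g hg hgD x₀ hx₀ hx₀c
  -- the free copy has the same type as `e` over `B`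
  obtain ⟨h₁, hh₁, h₁B, h₁e⟩ := hTB (k * g) (M.G.mul_mem hk hg) fun y hy hyc => by
    obtain ⟨t, ht, htq, hty⟩ := hrefl y hy hyc (q₀ ∪ e) (union_subset hq₀ heT)
      ((mk_union_le _ _).trans ((add_le_add hq₀c he).trans (add_eq_self hτ₀).le))
    obtain ⟨t', ht', ht'e, ht'y⟩ := hns t ht (fun x hx => htq x (Or.inl hx)) y hy hyc hty
    refine ⟨t'⁻¹ * (k * g) * t, M.G.mul_mem (M.G.mul_mem (M.G.inv_mem ht') (M.G.mul_mem hk hg)) ht,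
      fun x hx => ?_, fun x hx => ?_⟩
    · simp only [Equiv.Perm.mul_apply]
      rw [hgD _ (hty x hx), hkT _ (hDT (hty x hx)), ← ht'y x hx, inv_ap]
    · simp only [Equiv.Perm.mul_apply]
      rw [htq x (Or.inr hx), fix_inv (ht'e x hx)]
  have hlk : ((l * k : Equiv.Perm C) '' x₀) ⊆ X := by
    rintro _ ⟨x, hx, rfl⟩
    exact hlX x hx
  have hlkc : #((l * k : Equiv.Perm C) '' x₀ : Set C) < M.χ := mk_image_le.trans_lt (hx₀c.trans_lt hμ)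
  -- the free copy of `x₀` is reflected into `X`
  obtain ⟨h₂, hh₂, h₂A, h₂e⟩ := hB (l * h₁) (M.G.mul_mem hl hh₁) (fun x hx => by
    rw [Equiv.Perm.mul_apply, h₁B x hx, hlB x hx]) _ hlk hlkc
  obtain ⟨h₃, hh₃, h₃A, h₃e⟩ := hB l hl hlB _ hlk hlkc
  refine ⟨(l * k)⁻¹ * (h₂ * h₃⁻¹) * (l * k), M.G.mul_mem (M.G.mul_mem
    (M.G.inv_mem (M.G.mul_mem hl hk)) (M.G.mul_mem hh₂ (M.G.inv_mem hh₃))) (M.G.mul_mem hl hk),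
    fun x hx => ?_, fun x hx => ?_⟩
  · have h4 := h₂A _ (mem_image_of_mem (l * k : Equiv.Perm C) hx)
    have h5 := fix_inv (h₃A _ (mem_image_of_mem (l * k : Equiv.Perm C) hx))
    simp only [Equiv.Perm.mul_apply] at h4 h5 ⊢
    rw [h5, h4, mul_inv_rev]
    simp only [Equiv.Perm.mul_apply]
    rw [inv_ap, inv_ap]
  · simp only [Equiv.Perm.mul_apply, mul_inv_rev]
    rw [hkT x (heT hx), ← h₃e x hx, inv_ap, h₂e x hx, Equiv.Perm.mul_apply, h₁e x hx,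
      Equiv.Perm.mul_apply, inv_ap, inv_ap]

/-- The same with the nonsplitting replaced by a uniform reflection of `k (g e)` into one subset
`q₀` of `T₁` of size at most `τ` over all the subsets of `B' ∪ D` of size at most `μ`. -/
theorem isol_shrink₂' (hDT : D ⊆ T₁) (heT : e ⊆ T₁) (he : #e ≤ τ) (hτ₀ : ℵ₀ ≤ τ) (hμ₀ : ℵ₀ ≤ μ)
    (hμ : μ < M.χ)
    (hrefl : ∀ y ⊆ B', #y ≤ μ → ∀ q ⊆ T₁, #q ≤ τ →
      ∃ t ∈ M.G, (∀ x ∈ q, t x = x) ∧ ∀ x ∈ y, t x ∈ D)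
    (hfree : ∀ g ∈ M.G, (∀ x ∈ D, g x = x) → ∀ x₀ ⊆ X, #x₀ ≤ μ → ∃ k ∈ M.G,
      (∀ x ∈ T₁, k x = x) ∧
      (∃ q₀ ⊆ T₁, #q₀ ≤ τ ∧ ∀ q ⊆ B' ∪ D, #q ≤ μ →
        ∃ s ∈ M.G, (∀ x ∈ q, s x = x) ∧ ∀ x ∈ e, s (k (g x)) ∈ q₀) ∧
      ∃ l ∈ M.G, (∀ x ∈ B, l x = x) ∧ ∀ x ∈ x₀, l (k x) ∈ X)
    (hTB : ∀ g ∈ M.G, (∀ y ⊆ B', #y ≤ μ → ∃ h ∈ M.G, (∀ x ∈ y, h x = x) ∧ ∀ x ∈ e, h x = g x) →
      ∃ h ∈ M.G, (∀ x ∈ B, h x = x) ∧ ∀ x ∈ e, h x = g x)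
    (hTX : ∀ g ∈ M.G, (∀ y ⊆ X, #y ≤ μ → ∃ h ∈ M.G, (∀ x ∈ y, h x = x) ∧ ∀ x ∈ e, h x = g x) →
      ∀ A ⊆ X, #A < M.χ → ∃ h ∈ M.G, (∀ x ∈ A, h x = x) ∧ ∀ x ∈ e, h x = g x)
    (hB : M.Isol B X e) : M.Isol D X e := by
  refine isol_shrink₂ hDT heT he hτ₀ hμ hrefl (fun g hg hgD x₀ hx₀ hx₀c => ?_) hTB hTX hB
  obtain ⟨k, hk, hkT, ⟨q₀, hq₀, hq₀c, hs⟩, hl⟩ := hfree g hg hgD x₀ hx₀ hx₀c
  refine ⟨k, hk, hkT, ⟨q₀, hq₀, hq₀c, fun t ht htq y hy hyc htD => ?_⟩, hl⟩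
  obtain ⟨s, hsG, hsq, hse⟩ := hs (y ∪ t '' y) (union_subset (hy.trans subset_union_left) (by
    rintro _ ⟨x, hx, rfl⟩
    exact Or.inr (htD x hx)))
    ((mk_union_le _ _).trans ((add_le_add hyc (mk_image_le.trans hyc)).trans
      (add_eq_self hμ₀).le))
  refine ⟨s⁻¹ * t * s, M.G.mul_mem (M.G.mul_mem (M.G.inv_mem hsG) ht) hsG,
    fun x hx => ?_, fun x hx => ?_⟩
  · rw [Equiv.Perm.mul_apply, Equiv.Perm.mul_apply, htq _ (hse x hx), inv_ap]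
  · rw [Equiv.Perm.mul_apply, Equiv.Perm.mul_apply, hsq x (Or.inl hx),
      fix_inv (hsq (t x) (Or.inr (mem_image_of_mem _ hx)))]

end Vale.Agent.P307.R2.H608
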